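import Vale.Agent.P095.General.Hom
import Vale.Agent.P101.Defs

/-!
For a unital algebra the two notions of a character on the central sequence algebra agree, and the
trivial group is amenable.
-/

noncomputable section

open Filter Topology
open scoped BoundedContinuousFunction

namespace Vale.Agent.ZAbs.Glue

open Vale.Agent.P101
open Vale.Agent.P095 (Folner)
open Vale.Agent.P095.General

universe u

variable {A : Type u} [CStarAlgebra A] {ω : Ultrafilter ℕ}

lemma isAnnA_iff_isNull (a : ℕ →ᵇ A) : IsAnnA ω a ↔ IsNull ω a := by
  constructor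
  · intro h
    refine squeeze_zero (fun n => norm_nonneg _) (fun n => ?_) (h 1)
    rw [mul_one]
    exact le_add_of_nonneg_right (norm_nonneg _)
  · intro h b
    refine squeeze_zero (g := fun n => ‖a n‖ * ‖b‖ + ‖b‖ * ‖a n‖) (fun n => by positivity)
      (fun n => add_le_add (norm_mul_le _ _) (norm_mul_le _ _)) ?_
    simpa using (h.mul_const ‖b‖).add (h.const_mul ‖b‖)

/-- Characters on representatives in the sense of algebras which need not be unital are
characters in the unital sense. -/
theorem noCharA_of_noChar (h : IsEmpty (CentralChar ω A)) : IsEmpty (CentralCharA ω A) := by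
  refine ⟨fun χ => ?_⟩
  obtain ⟨a, ha, hne⟩ := χ.ne_zero
  have h1c : IsCentralA ω (1 : ℕ →ᵇ A) := fun b => by simp
  have hone : χ.val 1 = 1 := by
    have := χ.map_mul 1 a h1c ha
    rw [one_mul] at this
    exact (mul_eq_right₀ hne).1 this.symm
  exact h.false ⟨χ.val, hone, χ.map_add, χ.map_mul, χ.map_smul, χ.map_star,
    fun a ha hn => χ.map_ann a ha ((isAnnA_iff_isNull a).2 hn)⟩

/-- Characters in the unital sense are characters in the sense of algebras which need not be
unital. -/
theorem noChar_of_noCharA (h : IsEmpty (CentralCharA ω A)) : IsEmpty (CentralChar ω A) :=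
  ⟨fun χ => h.false ⟨χ.val, ⟨1, fun b => by simp, by simp [χ.map_one]⟩, χ.map_add, χ.map_mul,
    χ.map_smul, χ.map_star, fun a ha hn => χ.map_null a ha ((isAnnA_iff_isNull a).1 hn)⟩⟩

/-- The trivial group is amenable. -/
lemma folner_punit : Folner PUnit.{1} := fun _ ε hε =>
  ⟨Finset.univ, Finset.univ_nonempty, fun h _ => by simp [hε.le]⟩

end Vale.Agent.ZAbs.Glue
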