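import Vale.Agent.P095.General.Main
import Vale.Agent.P095.General.Spread
import Vale.Agent.P095.General.Fair
import Vale.Agent.P095.General.Core
import Vale.Agent.P095.General.Ingredient

/-!
Without characters the invariant part of the central sequence algebra has the dimension drop
relations of arbitrarily large size.
-/

noncomputable section

open Filter Topology
open scoped BoundedContinuousFunction

namespace Vale.Agent.ZAbs.Glue

open Vale.Agent.P101
open Vale.Agent.P101.Stage4 (ComparisonN)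
open Vale.Agent.P095 (Folner)
open Vale.Agent.P095.General

universe u v

/-- Infinitely many commuting copies of an algebra without characters give the relations of
arbitrarily large size. -/
lemma comparisonN_copies {B F : Type u} [CStarAlgebra B] [CStarAlgebra F] (c : Copies B F ℕ)
    (hB : Full {x : B | ∃ a b, a * b - b * a = x}) (m : ℕ) :
    ∃ (n : ℕ) (z : Fin n), m ≤ n ∧ ComparisonN n z F := by
  obtain ⟨S, hS⟩ := exists_finite_witness hB
  have : IsClosed ((⊤ : StarSubalgebra ℂ B) : Set B) := by simp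
  obtain ⟨L, b, hb, hfull⟩ := hS ⊤ (by simp)
  have hW : HasWitness B := by
    refine ⟨L, fun l => (b l : B), fun l => (hb l).map (⊤ : StarSubalgebra ℂ B).subtype, ?_⟩
    refine full_mono (full_map (⊤ : StarSubalgebra ℂ B).subtype hfull) ?_
    rintro _ ⟨x, ⟨l, d, rfl⟩, rfl⟩
    exact TwoSidedIdeal.subset_span ⟨l, d, rfl⟩
  obtain ⟨n1, k1⟩ := stage1_ok B hW
  obtain ⟨B1, _, ⟨d1⟩, ⟨c1⟩⟩ := regroup_ok B F n1 c
  obtain ⟨n2, k2⟩ := stage2_ok B1 (k1 B1 d1)
  obtain ⟨B2, _, ⟨d2⟩, ⟨c2⟩⟩ := regroup_ok B1 F n2 c1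
  obtain ⟨n3, k3⟩ := stage3_ok B2 (k2 B2 d2)
  obtain ⟨B3, _, ⟨d3⟩, ⟨c3⟩⟩ := regroup_ok B2 F n3 c2
  obtain ⟨x₀, hx₀, hx₀f⟩ := k3 B3 d3
  obtain ⟨B4, _, ⟨d4⟩, ⟨c4⟩⟩ := regroup_ok B3 F (m + 1) c3
  obtain ⟨M, E, z₀, hM, hE, hEs, hEf, -⟩ :=
    Vale.Agent.P095.Link.exists_family d4 hx₀ hx₀f (m + 1) le_rfl
  obtain ⟨l, hl⟩ := Vale.Agent.P101.Stage4.stage4N.{u, u} hE hEs hEf colour_ok
  refine ⟨M, z₀, ?_, hl F ⟨fun i => c4.hom i.1, fun i j hij =>
    c4.comm _ _ fun e => hij (Fin.ext e)⟩⟩
  rw [hM]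
  exact (Nat.le_succ m).trans Nat.lt_two_pow_self.le

/-- A fixed point algebra without characters has relations of arbitrarily large size. -/
lemma comparisonN_fixed {G : Type v} [Group G] {D : Type u} [CStarAlgebra D] (sys : Sys G D)
    [IsClosed (Vale.Agent.P095.Finite.fixedAlg sys.act : Set D)]
    (h : IsEmpty (Vale.Agent.P095.Finite.fixedAlg sys.act →⋆ₐ[ℂ] ℂ)) (m : ℕ) :
    ∃ (n : ℕ) (z : Fin n), m ≤ n ∧
      ComparisonN n z (Vale.Agent.P095.Finite.fixedAlg sys.act) := by
  set F := Vale.Agent.P095.Finite.fixedAlg sys.act with hF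
  have hclF : IsClosed (F : Set D) := inferInstance
  have hfull : Full {x : F | ∃ a b, a * b - b * a = x} := by
    by_contra hn
    exact h.false (exists_char_of_not_full hn).some
  obtain ⟨n, p, x, q, hx, hsum⟩ := full_exists_sum hfull
  choose a b hab using hx
  let S : Set D := Set.range (fun i => (p i : D)) ∪ Set.range (fun i => (q i : D))
    ∪ Set.range (fun i => (a i : D)) ∪ Set.range (fun i => (b i : D))
  have hS : S.Countable :=
    (((Set.countable_range _).union (Set.countable_range _)).union (Set.countable_range _)).union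
      (Set.countable_range _)
  have hSF : S ⊆ F := by
    rintro y (((⟨i, rfl⟩ | ⟨i, rfl⟩) | ⟨i, rfl⟩) | ⟨i, rfl⟩)
    exacts [(p i).2, (q i).2, (a i).2, (b i).2]
  have hgen : gen sys.act S ≤ F := gen_le hclF (by
    rintro y (hy | hy)
    · exact hSF hy
    · obtain ⟨g, z, hz, rfl⟩ := Set.mem_iUnion.1 hy
      rw [show sys.act g z = z from hSF hz g]
      exact hSF hz)
  obtain ⟨c, -, -, hfixc⟩ := sys.exists_copies S hS
  let cF : Copies ↥(gen sys.act S) F ℕ :=
    ⟨fun k => StarAlgHom.codRestrict (c.hom k) F fun y g => hfixc k y (hgen y.2) g,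
      fun j k hjk y z => Subtype.ext (c.comm j k hjk y z).eq⟩
  let P : Fin n → ↥(gen sys.act S) := fun i =>
    ⟨p i, subset_gen (Or.inl (Or.inl (Or.inl ⟨i, rfl⟩)))⟩
  let Q : Fin n → ↥(gen sys.act S) := fun i =>
    ⟨q i, subset_gen (Or.inl (Or.inl (Or.inr ⟨i, rfl⟩)))⟩
  let A' : Fin n → ↥(gen sys.act S) := fun i => ⟨a i, subset_gen (Or.inl (Or.inr ⟨i, rfl⟩))⟩
  let B' : Fin n → ↥(gen sys.act S) := fun i => ⟨b i, subset_gen (Or.inr ⟨i, rfl⟩)⟩
  have hB : Full {x : ↥(gen sys.act S) | ∃ a b, a * b - b * a = x} := by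
    refine full_of_sum (p := P) (x := fun i => A' i * B' i - B' i * A' i) (q := Q)
      (fun i => ⟨A' i, B' i, rfl⟩) ?_
    refine Subtype.ext ?_
    have e := congrArg F.subtype hsum
    simpa [P, Q, A', B', ← hab] using e
  exact comparisonN_copies cF hB m

section Central

variable {A : Type u} [NonUnitalCStarAlgebra A] (ω : Ultrafilter ℕ)

/-- The action on the central sequence algebra. -/
def actA {G : Type v} [Group G] (α : G → A ≃⋆ₐ[ℂ] A)
    (hα : ∀ g h x, α (g * h) x = α g (α h x)) (g : G) : FA ω A ≃⋆ₐ[ℂ] FA ω A :=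
  actI ω (unitIdl A) (fun g => liftAut (α g)) (fun g => pres_liftAut (α g)) (liftAut_mul α hα) g

instance instClosedFixedA {G : Type v} [Group G] (α : G → A ≃⋆ₐ[ℂ] A)
    (hα : ∀ g h x, α (g * h) x = α g (α h x)) :
    IsClosed (Vale.Agent.P095.Finite.fixedAlg (actA ω α hα) : Set (FA ω A)) :=
  Vale.Agent.P095.Finite.isClosed_fixed _

/-- An approximate unit along ω. -/
lemma exists_unit_omega [TopologicalSpace.SeparableSpace A] (hω : (ω : Filter ℕ) ≤ cofinite) :
    ∃ e : ℕ →ᵇ A, ∀ b : A, Tendsto (fun n => ‖e n * b - b‖) (ω : Filter ℕ) (𝓝 0) ∧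
      Tendsto (fun n => ‖b * e n - b‖) (ω : Filter ℕ) (𝓝 0) := by
  obtain ⟨ee, hee⟩ := exists_unit_seq (A := A)
  have hat := tendsto_atTop_omega hω
  exact ⟨ee, fun b => ⟨(hee b).1.mono_left hat, (hee b).2.mono_left hat⟩⟩

/-- Characters of the quotient are characters on representatives. -/
lemma noChar_FA [TopologicalSpace.SeparableSpace A] (hω : (ω : Filter ℕ) ≤ cofinite)
    (he : IsEmpty (CentralCharA ω A)) : IsEmpty (FA ω A →⋆ₐ[ℂ] ℂ) := by
  classical
  refine ⟨fun χ => ?_⟩
  obtain ⟨e, hu⟩ := exists_unit_omega ω hω (A := A)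
  obtain ⟨a₁, ha₁, hone⟩ := exists_repA ω hu (1 : FA ω A)
  let val : (ℕ →ᵇ A) → ℂ := fun a => if h : IsCentralA ω a then χ (cls ω a h) else 0
  have hval : ∀ a (h : IsCentralA ω a), val a = χ (cls ω a h) := fun a h => dif_pos h
  exact he.false
    { val := val
      ne_zero := ⟨a₁, ha₁, by rw [hval _ ha₁, hone, map_one]; exact one_ne_zero⟩
      map_add := fun a b ha hb => by
        rw [hval a ha, hval b hb, hval _ (central_add ω ha hb), cls_add ω ha hb, map_add]
      map_mul := fun a b ha hb => by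
        rw [hval a ha, hval b hb, hval _ (central_mul ω ha hb), cls_mul ω ha hb, map_mul]
      map_smul := fun z a ha => by
        rw [hval a ha, hval _ (central_smul ω z ha), cls_smul ω z ha, map_smul, smul_eq_mul]
      map_star := fun a ha => by
        rw [hval a ha, hval _ (central_star ω ha), cls_star ω ha, map_star]
        rfl
      map_ann := fun a ha hn => by rw [hval a ha, (cls_eq_zero_iff ω ha).2 hn, map_zero] }

/-- The invariant part of the central sequence algebra of a system without characters has no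
characters and the relations of arbitrarily large size. -/
theorem comparisonN_central {G : Type v} [Group G] [Countable G] (hG : Folner G)
    [TopologicalSpace.SeparableSpace A] (α : G → A ≃⋆ₐ[ℂ] A)
    (hα : ∀ g h x, α (g * h) x = α g (α h x)) (hω : (ω : Filter ℕ) ≤ cofinite)
    (he : IsEmpty (CentralCharA ω A)) (m : ℕ) :
    ∃ (n : ℕ) (z : Fin n), m ≤ n ∧
      ComparisonN n z (Vale.Agent.P095.Finite.fixedAlg (actA ω α hα)) := by
  have hP : ∀ g, Pres (unitIdl A) (liftAut (α g)) := fun g => pres_liftAut (α g)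
  let sys : Sys G (FA ω A) :=
    { act := actA ω α hα
      act_mul := actI_mul ω (unitIdl A) _ hP (liftAut_mul α hα)
      noChar := noChar_FA ω hω he
      copies := fun S hS => copiesI ω (unitIdl A) _ hP (liftAut_mul α hα) hω denseIdl S hS
      saturate := fun n B t h => saturateI ω (unitIdl A) _ hP (liftAut_mul α hα) hω denseIdl n B t h }
  have hfix : IsEmpty (Vale.Agent.P095.Finite.fixedAlg sys.act →⋆ₐ[ℂ] ℂ) :=
    fixed_of (spread_ok ingredient_ok core_ok)
      (pair_ok linear_ok (fair_ok ingredient_ok linear_ok core_ok)) length_ok sector_ok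
      G hG (FA ω A) sys
  exact comparisonN_fixed sys hfix m

end Central

end Vale.Agent.ZAbs.Glue
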